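import Vale.Agent.P181.H261.Orbit
import Vale.Agent.P181.T4.Asm

set_option autoImplicit false

/-!
# P181, RG: a gap after row `m ≥ 3` (all rows counted), `b ≥ 20 a`, no bound on `λ_2 + λ_3 + ...`

`b` letters of degree `k`: `u` free letters and `f r` letters of the class `r < m`. All the `N`
marker columns have length `m`; at the marking point a letter of the class `r` is the unit vector
`e_r`. A marker column carries in its row `r` either a letter of the class `r` or a free letter.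
-/

namespace Vale.Agent.P181.RG

open Finset Vale.Agent.P181 Vale.Agent.P181.H280 Vale.Agent.P181.H463

/-- The letters: free letters and the letters of the classes. -/
abbrev Lt (u m : ℕ) (f : Fin m → ℕ) : Type := Fin u ⊕ (Σ r : Fin m, Fin (f r))

/-- The row (`0`, `1` or `2`) of the free letter in the form column number `s < 2 D` of exponent `l`:
`l % (D + 1)` times row one, `l / (D + 1)` times row two, row zero otherwise. -/
def al (D l s : ℕ) : ℕ :=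
  if s < l % (D + 1) then 1 else if s < l % (D + 1) + l / (D + 1) then 2 else 0

/-- `x` is a letter of the class `r`. -/
def Own {u m : ℕ} {f : Fin m → ℕ} (r : Fin m) (x : Lt u m f) : Prop :=
  ∃ i : Fin (f r), x = Sum.inr ⟨r, i⟩

/-- `x`, `y` are letters of the same class. -/
def Same {u m : ℕ} {f : Fin m → ℕ} (x y : Lt u m f) : Prop := ∃ r, Own r x ∧ Own r y

/-- The free letters of a column (`none`: the letter of the row's own class): at most one of them,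
or two different ones in the rows `0` and `1`. -/
def Thin {u m : ℕ} (g : Fin m → Option (Fin u)) : Prop :=
  (∀ r r', g r ≠ none → g r' ≠ none → r = r') ∨
    ∃ i j, i ≠ j ∧ ∀ r : Fin m,
      g r = if (r : ℕ) = 0 then some i else if (r : ℕ) = 1 then some j else none

/-- **The design**: for every permutation `τ` of the free letters, `u * (2 * D) + R` columns. -/
def RDes (u m D R k : ℕ) (f : Fin m → ℕ) (e : Fin u → ℕ) : Prop :=
  ∃ (fr : Fin R → Fin m → Option (Fin u))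
    (K : Equiv.Perm (Fin u) → (Fin u × Fin (2 * D)) ⊕ Fin R → Fin m → Lt u m f),
    (∀ c, Thin (fr c)) ∧
    (∀ τ i (s : Fin (2 * D)) (r : Fin m), if (r : ℕ) = al D (τ i) s
      then K τ (Sum.inl (i, s)) r = Sum.inl i else Own r (K τ (Sum.inl (i, s)) r)) ∧
    (∀ τ c r, (∀ i, fr c r = some i → K τ (Sum.inr c) r = Sum.inl i) ∧
      (fr c r = none → Own r (K τ (Sum.inr c) r))) ∧
    (∀ τ i, ∑ c, (univ.filter fun r => K τ c r = Sum.inl i).card = e i) ∧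
    (∀ τ x, ∑ c, (univ.filter fun r => K τ c r = Sum.inr x).card = k) ∧
    ∀ τ (σ : Equiv.Perm (Lt u m f)),
      (∀ c r r', r ≠ r' → ¬ Same (σ (K τ c r)) (σ (K τ c r'))) →
      ∀ x : Σ r : Fin m, Fin (f r), Own x.1 (σ (Sum.inr x))

/-- **[MAT]** the orbit inequality of the design. -/
def MatRG : Prop :=
  ∀ (n k b u m D R : ℕ) (f : Fin m → ℕ) (lam η : Fin n → ℕ) (d : Fin u → ℕ),
    3 ≤ m → m ≤ n → u ≤ (D + 1) ^ 2 → u + ∑ r, f r = b → Antitone η →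
    (∀ i j, d i ≤ d j + 1) → ∑ i, d i = ∑ i, η i → (∀ i, d i ≤ k) →
    RDes u m D R k f (fun i => k - d i) →
    (∀ i : Fin n, (if (i : ℕ) < m then u * (2 * D) + R else 0) + η i = lam i) →
    gt n u η ≤ ((∑ i, η i) + u - 1).choose (u - 1) * (u.factorial * plethMult b k n lam)

/-- **[EXT]** a partial assignment of letters to slots extends to exact multiplicities. -/
def ExtRG : Prop :=
  ∀ (S L : Type) [Fintype S] [DecidableEq S] [Fintype L] [DecidableEq L] (c : L → ℕ)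
    (S₀ : Finset S) (g₀ : S → L), ∑ x, c x = Fintype.card S →
    (∀ x, (S₀.filter fun s => g₀ s = x).card ≤ c x) →
    ∃ g : S → L, (∀ s ∈ S₀, g s = g₀ s) ∧ ∀ x, (univ.filter fun s => g s = x).card = c x

/-- **[PEAK]** only the classes are independent sets of their sizes. `N x y`: the letters `x`, `y`
are together in some column. -/
def PeakRG : Prop :=
  ∀ (u m f₀ T g : ℕ) (grp : Fin u → Fin g) (N : Lt u m (fun r => f₀ - r) → Lt u m (fun r => f₀ - r)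
      → Prop), g + m ≤ T → T + m ≤ f₀ →
    (∀ x y, N x y → N y x) →
    (∀ x y : Σ r : Fin m, Fin (f₀ - r), x.1 ≠ y.1 → N (Sum.inr x) (Sum.inr y)) →
    (∀ i j : Fin u, i ≠ j → grp i = grp j → N (Sum.inl i) (Sum.inl j)) →
    (∀ (i : Fin u) (r : Fin m), ∃ A : Finset (Fin (f₀ - r)), A.card = T ∧
      ∀ j ∈ A, N (Sum.inl i) (Sum.inr ⟨r, j⟩)) →
    ∀ σ : Equiv.Perm (Lt u m (fun r => f₀ - r)), (∀ x y, N x y → ¬ Same (σ x) (σ y)) →
      ∀ x : Σ r : Fin m, Fin (f₀ - r), Own x.1 (σ (Sum.inr x))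

/-- **[DES]** the design exists. `F₀ + r k` free letters in the row `r` (`r < m`). -/
def DesRG : Prop :=
  ∀ (u m D R k f₀ F₀ T s : ℕ) (e : Fin u → ℕ), 3 ≤ m → 1 ≤ u → 1 ≤ s → u ≤ (D + 1) ^ 2 →
    u * (2 * D) + R = f₀ * k + F₀ →
    2 * ∑ i, e i = 2 * (m * F₀) + k * (m * (m - 1)) →
    (∀ i, 2 * D + s + 2 * T ≤ e i) →
    u * (2 * D + s + T) ≤ F₀ →
    m * f₀ ^ 2 + m * F₀ + k * m ^ 2 ≤ f₀ * k →
    4 * (u * T) ≤ (f₀ - m) * k → 8 * (m * f₀) + 4 ≤ k →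
    u / s + 1 + m ≤ T → T + m ≤ f₀ →
    RDes u m D R k (fun r => f₀ - r) e

/-- **[HALF]** (= `MR.HalfM`) -/
def HalfRG : Prop := ∀ (m R a E : ℕ) (mu eta : Fin m → ℕ), Antitone eta → R ≤ m → m ≤ a →
  (∀ i, mu i = eta i + if (i : ℕ) < R then E else 0) →
  (∀ i : Fin m, (i : ℕ) < R → E ≤ eta i ∧ ∀ j : Fin m, R ≤ (j : ℕ) → E + eta j ≤ eta i) →
  gt m a mu ≤ 2 ^ (R * a) * gt m a eta

/-- **[PAR]** the parameters: `w = √b + 1`, `D = s = w`, `T = w + m + 1`, `F₀ = b (4 w + m + 1)`,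
`f₀ = 16 m X w`. `N` columns. -/
def ParRG : Prop := ∃ a₀ : ℕ, ∀ (a b X m : ℕ), a₀ ≤ a → 2 ≤ X → X ^ 40 ≤ a → 20 * a ≤ b →
  b ≤ X * a → 3 ≤ m → m ≤ X ^ 2 →
  ∃ u D R f₀ F₀ T s N : ℕ, 1 ≤ u ∧ 1 ≤ s ∧ u ≤ (D + 1) ^ 2 ∧ u + ∑ r : Fin m, (f₀ - r) = b ∧
    N = u * (2 * D) + R ∧ N = f₀ * a + F₀ ∧ u * (2 * D + s + T) ≤ F₀ ∧
    m * f₀ ^ 2 + m * F₀ + a * m ^ 2 ≤ f₀ * a ∧ 4 * (u * T) ≤ (f₀ - m) * a ∧
    8 * (m * f₀) + 4 ≤ a ∧ u / s + 1 + m ≤ T ∧ T + m ≤ f₀ ∧ 2 * X * N ≤ a ^ 2 ∧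
    19 * a ≤ u ∧ u ≤ b

/-- **[NUM]** the final inequality. `t` boxes, `y` the length of the long rows. -/
def NumRG : Prop := ∃ a₀ : ℕ, ∀ (a b X m u t y : ℕ), a₀ ≤ a → 2 ≤ X → X ^ 40 ≤ a →
  b ≤ X * a → 3 ≤ m → 19 * a ≤ u → u ≤ b → t ≤ a * b → a ^ 2 ≤ 2 * X * y →
  2 ^ (m * a) * ((t + u - 1).choose (u - 1) : ℝ) * (u.factorial : ℝ) ≤
    (1 + (y : ℝ) / u) ^ (m * (u - a))

/-- **[CORE]** from [MAT], [DES], [HALF], [PAR], [NUM], `gt_growth_rows` and `plethMult ≤ gt`. -/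
def CoreRG : Prop := ∃ a₀ : ℕ, ∀ (a b X m n : ℕ) (lam : Fin n → ℕ), a₀ ≤ a → Antitone lam →
  ∑ i, lam i = a * b → n ≤ a → 2 ≤ X → X ^ 40 ≤ a → 20 * a ≤ b → b ≤ X * a → 3 ≤ m → m ≤ n →
  m ≤ X ^ 2 →
  (∀ i : Fin n, (i : ℕ) < m → a ^ 2 ≤ X * lam i ∧
    ∀ j : Fin n, m ≤ (j : ℕ) → a ^ 2 + X * lam j ≤ X * lam i) →
  plethMult a b n lam ≤ plethMult b a n lam

/-- **[FIN]** the polylogarithmic form. -/
def FinRG : Prop := ∀ C₀ c₀ : ℝ, 0 < C₀ → 0 ≤ c₀ → ∃ C : ℝ, 0 < C ∧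
  ∀ (a b m n : ℕ) (lam : Fin n → ℕ), Antitone lam → ∑ i, lam i = a * b → C * a ≤ b →
  3 ≤ m → m ≤ n →
  (∀ i : Fin n, (i : ℕ) < m → (a : ℝ) ^ 2 ≤ C₀ * (1 + Real.log a) ^ c₀ * lam i ∧
    ∀ j : Fin n, m ≤ (j : ℕ) →
      (a : ℝ) ^ 2 ≤ C₀ * (1 + Real.log a) ^ c₀ * ((lam i : ℝ) - lam j)) →
  plethMult a b n lam ≤ plethMult b a n lam

/-- **[BIG]** at least `a b / K` cells below row two: the complement of `C D_2 ≤ a b`. -/
def BigRG : Prop := ∀ K : ℝ, 0 < K → ∃ C : ℝ, 0 < C ∧ ∀ (a b n : ℕ) (lam : Fin (n + 2) → ℕ),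
  Antitone lam → ∑ i, lam i = a * b → C * a ≤ b →
  (a : ℝ) * b ≤ K * ∑ i : Fin n, (lam i.succ.succ : ℝ) →
  plethMult a b (n + 2) lam ≤ plethMult b a (n + 2) lam

end Vale.Agent.P181.RG
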